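import Mathlib

/-!
# P368: circuits of one-qubit gates and generalized Toffoli gates
-/

namespace Vale.Agent.P368

/-- State vectors on the qubits `N` (amplitudes in the computational basis). -/
abbrev State (N : Type) := (N → Bool) → ℂ

/-- The gates: arbitrary one-qubit unitaries, and generalized Toffoli gates with a nonempty set `S`
of controls and target `b` outside `S`. -/
inductive Gate (N : Type)
  | one (q : N) (U : Matrix Bool Bool ℂ) (hU : U ∈ Matrix.unitaryGroup Bool ℂ)
  | tof (S : Finset N) (b : N) (hb : b ∉ S) (hS : S.Nonempty)

variable {N : Type} [DecidableEq N]

/-- The action of a gate on a state vector. -/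
noncomputable def act : Gate N → State N → State N
  | .one q U _, ψ => fun x => ∑ c, U (x q) c * ψ (Function.update x q c)
  | .tof S b _ _, ψ => fun x => ψ (if ∀ i ∈ S, x i = true then Function.update x b (!x b) else x)

/-- The circuit with the gates `C`, applied from left to right. -/
noncomputable def run : List (Gate N) → State N → State N
  | [], ψ => ψ
  | g :: C, ψ => run C (act g ψ)

omit [DecidableEq N] in
/-- The number of multi-qubit gates. -/
def toffolis : List (Gate N) → ℕ
  | [] => 0
  | .one _ _ _ :: C => toffolis C
  | .tof _ _ _ _ :: C => toffolis C + 1

open Classical in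
/-- The computational basis vector `x`. -/
noncomputable def ket (x : N → Bool) : State N := fun y => if y = x then 1 else 0

/-- The parity of the bits of `x` at the qubits `ι 0, ..., ι (n-1)`. -/
def par {n : ℕ} (ι : Fin n ↪ N) (x : N → Bool) : Bool :=
  decide (Odd (Finset.univ.filter fun i => x (ι i) = true).card)

/-- The circuit `C` computes the parity of the input qubits `ι 0, ..., ι (n-1)` on the qubit `out`,
exactly and cleanly: whenever all qubits except the input qubits are `0` at the start, the
input is kept, `out` receives the parity, and all other qubits are returned to `0`. -/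
def Computes {n : ℕ} (ι : Fin n ↪ N) (out : N) (C : List (Gate N)) : Prop :=
  ∀ x : N → Bool, (∀ q, q ∉ Set.range ι → x q = false) →
    run C (ket x) = ket (Function.update x out (par ι x))

end Vale.Agent.P368
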