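import Vale.Agent.P368.Defs

/-!
# P368: circuits with a designated output qubit
-/

namespace Vale.Agent.P368

variable {N : Type} [DecidableEq N]

/-- The number of multi-qubit gates which act on at least one qubit of the set `F`. -/
def hits (F : Finset N) : List (Gate N) → ℕ
  | [] => 0
  | .one _ _ _ :: C => hits F C
  | .tof S b _ _ :: C => if ∃ r ∈ F, r ∈ S ∨ r = b then hits F C + 1 else hits F C

/-- The state `χ` does not depend on the input qubits `ι 0, ..., ι (n-1)`: it is a vector on the
other qubits. -/
def Advice {n : ℕ} (ι : Fin n ↪ N) (χ : State N) : Prop :=
  ∀ x y : N → Bool, (∀ q, q ∉ Set.range ι → x q = y q) → χ x = χ y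

/-- The initial state: the basis state `a` on the input qubits, `χ` on all the other qubits. -/
noncomputable def start {n : ℕ} (ι : Fin n ↪ N) (χ : State N) (a : Fin n → Bool) : State N :=
  fun y => if ∀ i, y (ι i) = a i then χ y else 0

/-- With the state `χ` on the non-input qubits at the start, the circuit `C` computes the parity
on the designated qubit `out`: for every input `a`, a measurement of `out` at the end gives the
parity of `a` with certainty. Nothing is required of the other qubits. -/
def Decides {n : ℕ} (ι : Fin n ↪ N) (out : N) (χ : State N) (C : List (Gate N)) : Prop :=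
  ∀ (a : Fin n → Bool) (y : N → Bool),
    y out ≠ decide (Odd (Finset.univ.filter fun i => a i = true).card) →
      run C (start ι χ a) y = 0

end Vale.Agent.P368
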