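import Vale.Agent.P368.Main
import Vale.Agent.P368.Defs2

/-!
# P368: gate elimination with the product of the one-qubit gates
-/

namespace Vale.Agent.P368

open Finset

variable {N : Type} [DecidableEq N]

/-- The product of the one-qubit gates on the qubit `i`. -/
noncomputable def prodOn (i : N) : List (Gate N) → Matrix Bool Bool ℂ
  | [] => 1
  | .one q U _ :: C => if q = i then prodOn i C * U else prodOn i C
  | .tof _ _ _ _ :: C => prodOn i C

/-- With fewer multi-qubit gates than free qubits, one free qubit stays in tensor product with
all the others, for a suitable preparation of the other free qubits. -/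
theorem elim2 (F₀ : Finset N) (C : List (Gate N)) : ∀ (F : Finset N), F ⊆ F₀ →
    ∀ (χ : State N), Indep F χ → hits F₀ C < F.card → ∃ i ∈ F, ∃ φ : N → Bool → ℂ, (∀ j, ∃ c, φ j c ≠ 0) ∧
      ∃ (ω : State N), (∀ x c, ω (Function.update x i c) = ω x) ∧
        ∀ p : Bool → ℂ, run C (fun x => p (x i) * ((∏ j ∈ F.erase i, φ j (x j)) * χ x)) =
          fun x => (∑ c, prodOn i C (x i) c * p c) * ω x := by
  induction C with
  | nil =>
    intro F _ χ hχ hF
    obtain ⟨i, hi⟩ := card_pos.1 (lt_of_le_of_lt (Nat.zero_le _) hF)
    refine ⟨i, hi, fun _ _ => 1, fun j => ⟨true, one_ne_zero⟩, χ, fun x c => hχ i hi x c, ?_⟩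
    intro p
    funext x
    simp [run, prodOn, Matrix.one_apply]
  | cons g C ih =>
    intro F hFF χ hχ hF
    cases g with
    | one q U hU =>
      simp only [hits] at hF
      by_cases hq : q ∈ F
      · obtain ⟨i, hi, φ, hφ, ω, hω, hrun⟩ := ih F hFF χ hχ hF
        have hUU : U * star U = 1 := Matrix.mem_unitaryGroup_iff.1 hU
        by_cases hiq : i = q
        · subst hiq
          refine ⟨i, hi, φ, hφ, ω, hω, fun p => ?_⟩
          rw [prodOn, if_pos rfl]
          have h1 : act (.one i U hU)
              (fun x => p (x i) * ((∏ j ∈ F.erase i, φ j (x j)) * χ x)) =
              fun x => (∑ c, U (x i) c * p c) * ((∏ j ∈ F.erase i, φ j (x j)) * χ x) := by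
            funext x
            simp only [act, Function.update_self, hχ i hq,
              prod_update (F.erase i) φ (notMem_erase i F), sum_mul]
            exact sum_congr rfl fun c _ => by ring
          rw [run, h1, hrun (fun b => ∑ c, U b c * p c)]
          funext x
          congr 1
          simp only [Matrix.mul_apply, mul_sum, sum_mul]
          rw [sum_comm]
          exact sum_congr rfl fun c _ => sum_congr rfl fun d _ => by ring
        · have hqe : q ∈ F.erase i := mem_erase.2 ⟨fun e => hiq e.symm, hq⟩
          set k : Bool → ℂ := fun b => ∑ c, (star U) b c * φ q c with hk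
          have hUk : ∀ b, ∑ c, U b c * k c = φ q b := by
            intro b
            have h2 : U.mulVec ((star U).mulVec (φ q)) = φ q := by
              rw [Matrix.mulVec_mulVec, hUU, Matrix.one_mulVec]
            exact congrFun h2 b
          refine ⟨i, hi, Function.update φ q k, ?_, ω, hω, fun p => ?_⟩
          · intro j
            by_cases hj : j = q
            · subst hj
              by_contra hcon
              push Not at hcon
              obtain ⟨c, hc⟩ := hφ j
              apply hc
              rw [← hUk c]
              refine sum_eq_zero fun d _ => ?_
              have := hcon d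
              rw [Function.update_self] at this
              rw [this, mul_zero]
            · rw [Function.update_of_ne hj]
              exact hφ j
          · have h1 : act (.one q U hU) (fun x => p (x i) *
                ((∏ j ∈ F.erase i, Function.update φ q k j (x j)) * χ x)) =
                fun x => p (x i) * ((∏ j ∈ F.erase i, φ j (x j)) * χ x) := by
              funext x
              have e1 : ∀ x : N → Bool, ∏ j ∈ F.erase i, Function.update φ q k j (x j) =
                  k (x q) * ∏ j ∈ (F.erase i).erase q, φ j (x j) := by
                intro x
                rw [← mul_prod_erase _ _ hqe, Function.update_self,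
                  prod_change _ φ (notMem_erase q _)]
              have e2 : ∏ j ∈ F.erase i, φ j (x j) =
                  φ q (x q) * ∏ j ∈ (F.erase i).erase q, φ j (x j) := by
                rw [← mul_prod_erase _ _ hqe]
              simp only [act, e1, e2, Function.update_self, hχ q hq, Function.update_of_ne hiq,
                prod_update ((F.erase i).erase q) φ (notMem_erase q _)]
              rw [← hUk (x q), sum_mul, sum_mul, mul_sum]
              exact sum_congr rfl fun c _ => by ring
            rw [run, h1, hrun, prodOn, if_neg (fun e : q = i => hiq e.symm)]
      · obtain ⟨i, hi, φ, hφ, ω, hω, hrun⟩ := ih F hFF _ (indep_one hχ hq U hU) hF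
        refine ⟨i, hi, φ, hφ, ω, hω, fun p => ?_⟩
        have hiq : i ≠ q := fun e => hq (e ▸ hi)
        rw [prodOn, if_neg (fun e : q = i => hiq e.symm)]
        have h1 := act_one_out (χ := χ) U hU
          (fun x => p (x i) * ∏ j ∈ F.erase i, φ j (x j)) (by
            intro x c
            rw [Function.update_of_ne hiq,
              prod_update (F.erase i) φ (fun e => hq (mem_of_mem_erase e))])
        have h2 : (fun x => p (x i) * ((∏ j ∈ F.erase i, φ j (x j)) * χ x)) =
            fun x => (p (x i) * ∏ j ∈ F.erase i, φ j (x j)) * χ x := by
          funext x; ring
        rw [run, h2, h1, ← hrun p]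
        congr 1
        funext x; ring
    | tof S b hb hS =>
      by_cases hr : ∃ r ∈ F, r ∈ S ∨ r = b
      · obtain ⟨r, hrF, hrS⟩ := hr
        rw [hits, if_pos ⟨r, hFF hrF, hrS⟩] at hF
        set k : Bool → ℂ := if r = b then fun _ => 1 else fun c => if c = true then 0 else 1
          with hk
        have hk0 : k false ≠ 0 := by
          simp only [hk]
          split_ifs <;> simp
        have hχ1 : Indep (F.erase r) (fun x => k (x r) * χ x) := by
          intro q hq x c
          have hqr : r ≠ q := fun e => (ne_of_mem_erase hq) e.symm
          simp only [Function.update_of_ne hqr, hχ q (mem_of_mem_erase hq)]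
        obtain ⟨i, hi, φ, hφ, ω, hω, hrun⟩ := ih (F.erase r) ((erase_subset _ _).trans hFF) _ hχ1 (by
          rw [card_erase_of_mem hrF]; omega)
        have hir : i ≠ r := ne_of_mem_erase hi
        have hre : r ∈ F.erase i := mem_erase.2 ⟨hir.symm, hrF⟩
        refine ⟨i, mem_of_mem_erase hi, Function.update φ r k, ?_, ω, hω, fun p => ?_⟩
        · intro j
          by_cases hj : j = r
          · subst hj
            exact ⟨false, by rw [Function.update_self]; exact hk0⟩
          · rw [Function.update_of_ne hj]
            exact hφ j
        · have e1 : ∀ x : N → Bool, ∏ j ∈ F.erase i, Function.update φ r k j (x j) =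
              k (x r) * ∏ j ∈ (F.erase r).erase i, φ j (x j) := by
            intro x
            rw [← mul_prod_erase _ _ hre, Function.update_self,
              prod_change _ φ (notMem_erase r _), erase_right_comm]
          have h1 : act (.tof S b hb hS) (fun x => p (x i) *
              ((∏ j ∈ F.erase i, Function.update φ r k j (x j)) * χ x)) =
              fun x => p (x i) *
              ((∏ j ∈ (F.erase r).erase i, φ j (x j)) * (k (x r) * χ x)) := by
            funext x
            simp only [act, e1]
            split_ifs with h
            · by_cases hrb : r = b
              · subst hrb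
                simp only [hk, if_true, Function.update_of_ne hir, hχ r hrF]
                rw [prod_update _ φ (fun e => notMem_erase r F (mem_of_mem_erase e))]
                ring
              · have hrS' : r ∈ S := hrS.resolve_right hrb
                have hxr : x r = true := h r hrS'
                simp [hk, hrb, hxr]
            · ring
          rw [run, h1, hrun, prodOn]
      · have hle : hits F₀ C ≤ hits F₀ (.tof S b hb hS :: C) := by
          rw [hits]
          split_ifs <;> omega
        push Not at hr
        have hbF : b ∉ F := fun e => (hr b e).2 rfl
        have hSF : ∀ i ∈ S, i ∉ F := fun i hi e => (hr i e).1 hi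
        obtain ⟨i, hi, φ, hφ, ω, hω, hrun⟩ := ih F hFF _ (indep_tof hχ hb hS hbF hSF) (by omega)
        refine ⟨i, hi, φ, hφ, ω, hω, fun p => ?_⟩
        have hib : i ≠ b := fun e => hbF (e ▸ hi)
        rw [prodOn]
        have h1 := act_tof_out (χ := χ) hb hS
          (fun x => p (x i) * ∏ j ∈ F.erase i, φ j (x j)) (by
            intro x c
            rw [Function.update_of_ne hib,
              prod_update (F.erase i) φ (fun e => hbF (mem_of_mem_erase e))])
        have h2 : (fun x => p (x i) * ((∏ j ∈ F.erase i, φ j (x j)) * χ x)) =
            fun x => (p (x i) * ∏ j ∈ F.erase i, φ j (x j)) * χ x := by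
          funext x; ring
        rw [run, h2, h1, ← hrun p]
        congr 1
        funext x; ring

end Vale.Agent.P368
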