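import Vale.Agent.P368.Elim2

/-!
# P368: clean computations, gates acting on input qubits
-/

namespace Vale.Agent.P368

open Finset

variable {N : Type} [DecidableEq N]

/-- The lower bound. -/
theorem lower3 [Fintype N] {n : ℕ} (ι : Fin n ↪ N) (out : N) (hout : out ∉ Set.range ι)
    (C : List (Gate N)) (hC : Computes ι out C) : n ≤ hits (univ.map ι) C := by
  classical
  by_contra hlt
  push Not at hlt
  set F : Finset N := univ.map ι with hF
  have hFmem : ∀ q, q ∈ F ↔ q ∈ Set.range ι := by
    intro q
    simp [hF]
  set χ : State N := fun x => if ∀ q, q ∉ F → x q = false then 1 else 0 with hχ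
  have hχi : Indep F χ := by
    intro q hq x c
    have : (∀ r, r ∉ F → Function.update x q c r = false) ↔ ∀ r, r ∉ F → x r = false := by
      refine forall₂_congr fun r hr => ?_
      have hrq : r ≠ q := by
        rintro rfl
        exact hr hq
      rw [Function.update_of_ne hrq]
    simp only [hχ, this]
  have houtF : out ∉ F := fun h => hout ((hFmem out).1 h)
  obtain ⟨i, hi, φ, hφ, ω, hω, hrun⟩ := elim2 F C F (Subset.refl _) χ hχi (by
    rw [hF, card_map, card_univ, Fintype.card_fin]; exact hlt)
  obtain ⟨i₀, rfl⟩ := (hFmem i).1 hi
  set V := prodOn (ι i₀) C with hV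
  choose c hc using hφ
  set x₀ : N → Bool := fun j => if j ∈ F then c j else false with hx₀
  set xb : Bool → N → Bool := fun b => Function.update x₀ (ι i₀) b with hxb
  set ψ : Bool → State N := fun b x => (if x (ι i₀) = b then (1 : ℂ) else 0) *
    ((∏ j ∈ F.erase (ι i₀), φ j (x j)) * χ x) with hψ
  have hout0 : ∀ b, xb b out = false := by
    intro b
    have : out ≠ ι i₀ := fun e => hout ⟨i₀, e.symm⟩
    simp only [hxb, Function.update_of_ne this, hx₀, if_neg houtF]
  have hsupp : ∀ b x, ψ b x ≠ 0 → ∀ q, q ∉ F → x q = false := by
    intro b x hx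
    by_contra hcon
    apply hx
    have : χ x = 0 := if_neg hcon
    simp only [hψ, this, mul_zero]
  have hsum : ∀ b y, run C (ψ b) y =
      ∑ x, ψ b x * (if y = Function.update x out (par ι x) then 1 else 0) := by
    intro b y
    rw [run_ket]
    refine sum_congr rfl fun x _ => ?_
    by_cases hx : ψ b x = 0
    · rw [hx, zero_mul, zero_mul]
    · rw [hC x (fun q hq => hsupp b x hx q (fun h => hq ((hFmem q).1 h)))]
      by_cases h : y = Function.update x out (par ι x) <;> simp [ket, h]
  have hne : ∀ b, ψ b (xb b) ≠ 0 := by
    intro b
    have h1 : χ (xb b) = 1 := by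
      refine if_pos fun q hq => ?_
      have hqi : q ≠ ι i₀ := by
        rintro rfl
        exact hq hi
      simp only [hxb, Function.update_of_ne hqi, hx₀, if_neg hq]
    have h2 : ∏ j ∈ F.erase (ι i₀), φ j (xb b j) ≠ 0 := by
      refine prod_ne_zero_iff.2 fun j hj => ?_
      have hji : j ≠ ι i₀ := ne_of_mem_erase hj
      have : xb b j = c j := by
        simp only [hxb, Function.update_of_ne hji, hx₀, if_pos (mem_of_mem_erase hj)]
      rw [this]
      exact hc j
    have h3 : xb b (ι i₀) = b := by simp only [hxb, Function.update_self]
    simp only [hψ, h1, h3, if_true, one_mul, mul_one]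
    exact h2
  -- value at the image of `xb b`
  have hval : ∀ b, run C (ψ b) (Function.update (xb b) out (par ι (xb b))) ≠ 0 := by
    intro b
    rw [hsum, sum_eq_single (xb b)]
    · simpa using hne b
    · intro x _ hx
      by_cases h0 : ψ b x = 0
      · rw [h0, zero_mul]
      · rw [if_neg, mul_zero]
        intro hcon
        apply hx
        funext q
        by_cases hq : q = out
        · subst hq
          rw [hsupp b x h0 q houtF, hout0]
        · have := congrFun hcon q
          rw [Function.update_of_ne hq, Function.update_of_ne hq] at this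
          exact this.symm
    · intro h
      exact absurd (mem_univ _) h
  have hzero : ∀ b y, y out ≠ par ι y → run C (ψ b) y = 0 := by
    intro b y hy
    rw [hsum]
    refine sum_eq_zero fun x _ => ?_
    rw [if_neg, mul_zero]
    rintro rfl
    apply hy
    rw [Function.update_self, par_update ι x hout]
  have hprod : ∀ b y, run C (ψ b) y = V (y (ι i₀)) b * ω y := by
    intro b y
    have := congrFun (hrun (fun c => if c = b then 1 else 0)) y
    rw [show run C (ψ b) y = run C (fun x => (if x (ι i₀) = b then (1 : ℂ) else 0) *
      ((∏ j ∈ F.erase (ι i₀), φ j (x j)) * χ x)) y from rfl, this]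
    simp
  have hioo : ι i₀ ≠ out := fun e => hout ⟨i₀, e⟩
  set y₀ : N → Bool := Function.update (xb false) out (par ι (xb false)) with hy₀
  have h1 : ω y₀ ≠ 0 := by
    intro h
    apply hval false
    rw [hprod, h, mul_zero]
  have h2 : V true true = 0 := by
    have h3 := hzero true (Function.update y₀ (ι i₀) true) (by
      have e1 : Function.update y₀ (ι i₀) true out = par ι (xb false) := by
        rw [Function.update_of_ne hioo.symm, hy₀, Function.update_self]
      have e2 : par ι (Function.update y₀ (ι i₀) true) = par ι (xb true) := by
        rw [hy₀, Function.update_comm hioo.symm, par_update ι _ hout]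
        simp only [hxb, Function.update_idem]
      rw [e1, e2]
      exact (par_flip ι x₀ i₀).symm)
    rw [hprod, hω, Function.update_self] at h3
    exact (mul_eq_zero.1 h3).resolve_right h1
  apply hval true
  rw [hprod, Function.update_of_ne hioo]
  have : xb true (ι i₀) = true := by simp only [hxb, Function.update_self]
  rw [this, h2, zero_mul]

end Vale.Agent.P368
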