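import Vale.Agent.P368.Defs

/-!
# P368: gate elimination
-/

namespace Vale.Agent.P368

open Finset

variable {N : Type} [DecidableEq N]

/-- Independence of the coordinates in `F`. -/
def Indep (F : Finset N) (χ : State N) : Prop :=
  ∀ q ∈ F, ∀ x c, χ (Function.update x q c) = χ x

theorem act_one_out {χ : State N} {q : N} (U hU)
    (f : (N → Bool) → ℂ) (hf : ∀ x c, f (Function.update x q c) = f x) :
    act (.one q U hU) (fun x => f x * χ x) = fun x => f x * act (.one q U hU) χ x := by
  funext x
  simp only [act, hf, mul_sum]
  exact sum_congr rfl fun c _ => by ring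

theorem act_tof_out {χ : State N} {S : Finset N} {b : N} (hb hS)
    (f : (N → Bool) → ℂ) (hf : ∀ x c, f (Function.update x b c) = f x) :
    act (.tof S b hb hS) (fun x => f x * χ x) = fun x => f x * act (.tof S b hb hS) χ x := by
  funext x
  simp only [act]
  split_ifs with h
  · rw [hf]
  · rfl

theorem indep_one {F : Finset N} {χ : State N} (h : Indep F χ) {q : N} (hq : q ∉ F) (U hU) :
    Indep F (act (.one q U hU) χ) := by
  intro r hr x c
  have hrq : q ≠ r := fun e => hq (e ▸ hr)
  simp only [act]
  refine sum_congr rfl fun d _ => ?_
  rw [Function.update_of_ne hrq, Function.update_comm hrq.symm, h r hr]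

theorem indep_tof {F : Finset N} {χ : State N} (h : Indep F χ) {S : Finset N} {b : N} (hb hS)
    (hbF : b ∉ F) (hSF : ∀ i ∈ S, i ∉ F) : Indep F (act (.tof S b hb hS) χ) := by
  intro r hr x c
  have hrb : b ≠ r := fun e => hbF (e ▸ hr)
  have e1 : (∀ i ∈ S, Function.update x r c i = true) ↔ ∀ i ∈ S, x i = true := by
    refine forall₂_congr fun i hi => ?_
    have hir : i ≠ r := by
      rintro rfl
      exact hSF i hi hr
    rw [Function.update_of_ne hir]
  simp only [act, e1]
  split_ifs with h1
  · rw [Function.update_of_ne hrb, Function.update_comm hrb.symm, h r hr]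
  · exact h r hr x c

/-- Products of one-qubit factors do not depend on the other coordinates. -/
theorem prod_update (F : Finset N) (φ : N → Bool → ℂ) {q : N} (hq : q ∉ F) (x : N → Bool)
    (c : Bool) : ∏ j ∈ F, φ j (Function.update x q c j) = ∏ j ∈ F, φ j (x j) := by
  refine prod_congr rfl fun j hj => ?_
  have hjq : j ≠ q := by
    rintro rfl
    exact hq hj
  rw [Function.update_of_ne hjq]

theorem prod_change (F : Finset N) (φ : N → Bool → ℂ) {q : N} (hq : q ∉ F) (k : Bool → ℂ)
    (x : N → Bool) : ∏ j ∈ F, Function.update φ q k j (x j) = ∏ j ∈ F, φ j (x j) := by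
  refine prod_congr rfl fun j hj => ?_
  have hjq : j ≠ q := by
    rintro rfl
    exact hq hj
  rw [Function.update_of_ne hjq]

/-- With fewer multi-qubit gates than free qubits, one free qubit stays in tensor product with
all the others, for a suitable preparation of the other free qubits. -/
theorem elim (C : List (Gate N)) : ∀ (F : Finset N) (χ : State N), Indep F χ →
    toffolis C < F.card → ∃ i ∈ F, ∃ φ : N → Bool → ℂ, (∀ j, ∃ c, φ j c ≠ 0) ∧
      ∃ (V : Matrix Bool Bool ℂ) (ω : State N), (∀ x c, ω (Function.update x i c) = ω x) ∧
        ∀ p : Bool → ℂ, run C (fun x => p (x i) * ((∏ j ∈ F.erase i, φ j (x j)) * χ x)) =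
          fun x => (∑ c, V (x i) c * p c) * ω x := by
  induction C with
  | nil =>
    intro F χ hχ hF
    obtain ⟨i, hi⟩ := card_pos.1 (lt_of_le_of_lt (Nat.zero_le _) hF)
    refine ⟨i, hi, fun _ _ => 1, fun j => ⟨true, one_ne_zero⟩, 1, χ, fun x c => hχ i hi x c, ?_⟩
    intro p
    funext x
    simp [run, Matrix.one_apply]
  | cons g C ih =>
    intro F χ hχ hF
    cases g with
    | one q U hU =>
      simp only [toffolis] at hF
      by_cases hq : q ∈ F
      · obtain ⟨i, hi, φ, hφ, V, ω, hω, hrun⟩ := ih F χ hχ hF
        have hUU : U * star U = 1 := Matrix.mem_unitaryGroup_iff.1 hU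
        by_cases hiq : i = q
        · subst hiq
          refine ⟨i, hi, φ, hφ, V * U, ω, hω, fun p => ?_⟩
          have h1 : act (.one i U hU)
              (fun x => p (x i) * ((∏ j ∈ F.erase i, φ j (x j)) * χ x)) =
              fun x => (∑ c, U (x i) c * p c) * ((∏ j ∈ F.erase i, φ j (x j)) * χ x) := by
            funext x
            simp only [act, Function.update_self, hχ i hq,
              prod_update (F.erase i) φ (notMem_erase i F), sum_mul]
            exact sum_congr rfl fun c _ => by ring
          rw [run, h1, hrun (fun b => ∑ c, U b c * p c)]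
          funext x
          congr 1
          simp only [Matrix.mul_apply, mul_sum, sum_mul]
          rw [sum_comm]
          exact sum_congr rfl fun c _ => sum_congr rfl fun d _ => by ring
        · have hqe : q ∈ F.erase i := mem_erase.2 ⟨fun e => hiq e.symm, hq⟩
          set k : Bool → ℂ := fun b => ∑ c, (star U) b c * φ q c with hk
          have hUk : ∀ b, ∑ c, U b c * k c = φ q b := by
            intro b
            have h2 : U.mulVec ((star U).mulVec (φ q)) = φ q := by
              rw [Matrix.mulVec_mulVec, hUU, Matrix.one_mulVec]
            exact congrFun h2 b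
          refine ⟨i, hi, Function.update φ q k, ?_, V, ω, hω, fun p => ?_⟩
          · intro j
            by_cases hj : j = q
            · subst hj
              by_contra hcon
              push Not at hcon
              obtain ⟨c, hc⟩ := hφ j
              apply hc
              rw [← hUk c]
              refine sum_eq_zero fun d _ => ?_
              have := hcon d
              rw [Function.update_self] at this
              rw [this, mul_zero]
            · rw [Function.update_of_ne hj]
              exact hφ j
          · have h1 : act (.one q U hU) (fun x => p (x i) *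
                ((∏ j ∈ F.erase i, Function.update φ q k j (x j)) * χ x)) =
                fun x => p (x i) * ((∏ j ∈ F.erase i, φ j (x j)) * χ x) := by
              funext x
              have e1 : ∀ x : N → Bool, ∏ j ∈ F.erase i, Function.update φ q k j (x j) =
                  k (x q) * ∏ j ∈ (F.erase i).erase q, φ j (x j) := by
                intro x
                rw [← mul_prod_erase _ _ hqe, Function.update_self,
                  prod_change _ φ (notMem_erase q _)]
              have e2 : ∏ j ∈ F.erase i, φ j (x j) =
                  φ q (x q) * ∏ j ∈ (F.erase i).erase q, φ j (x j) := by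
                rw [← mul_prod_erase _ _ hqe]
              simp only [act, e1, e2, Function.update_self, hχ q hq, Function.update_of_ne hiq,
                prod_update ((F.erase i).erase q) φ (notMem_erase q _)]
              rw [← hUk (x q), sum_mul, sum_mul, mul_sum]
              exact sum_congr rfl fun c _ => by ring
            rw [run, h1, hrun]
      · obtain ⟨i, hi, φ, hφ, V, ω, hω, hrun⟩ := ih F _ (indep_one hχ hq U hU) hF
        refine ⟨i, hi, φ, hφ, V, ω, hω, fun p => ?_⟩
        have hiq : i ≠ q := fun e => hq (e ▸ hi)
        have h1 := act_one_out (χ := χ) U hU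
          (fun x => p (x i) * ∏ j ∈ F.erase i, φ j (x j)) (by
            intro x c
            rw [Function.update_of_ne hiq,
              prod_update (F.erase i) φ (fun e => hq (mem_of_mem_erase e))])
        have h2 : (fun x => p (x i) * ((∏ j ∈ F.erase i, φ j (x j)) * χ x)) =
            fun x => (p (x i) * ∏ j ∈ F.erase i, φ j (x j)) * χ x := by
          funext x; ring
        rw [run, h2, h1, ← hrun p]
        congr 1
        funext x; ring
    | tof S b hb hS =>
      simp only [toffolis] at hF
      by_cases hr : ∃ r ∈ F, r ∈ S ∨ r = b
      · obtain ⟨r, hrF, hrS⟩ := hr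
        set k : Bool → ℂ := if r = b then fun _ => 1 else fun c => if c = true then 0 else 1
          with hk
        have hk0 : k false ≠ 0 := by
          simp only [hk]
          split_ifs <;> simp
        have hχ1 : Indep (F.erase r) (fun x => k (x r) * χ x) := by
          intro q hq x c
          have hqr : r ≠ q := fun e => (ne_of_mem_erase hq) e.symm
          simp only [Function.update_of_ne hqr, hχ q (mem_of_mem_erase hq)]
        obtain ⟨i, hi, φ, hφ, V, ω, hω, hrun⟩ := ih (F.erase r) _ hχ1 (by
          rw [card_erase_of_mem hrF]; omega)
        have hir : i ≠ r := ne_of_mem_erase hi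
        have hre : r ∈ F.erase i := mem_erase.2 ⟨hir.symm, hrF⟩
        refine ⟨i, mem_of_mem_erase hi, Function.update φ r k, ?_, V, ω, hω, fun p => ?_⟩
        · intro j
          by_cases hj : j = r
          · subst hj
            exact ⟨false, by rw [Function.update_self]; exact hk0⟩
          · rw [Function.update_of_ne hj]
            exact hφ j
        · have e1 : ∀ x : N → Bool, ∏ j ∈ F.erase i, Function.update φ r k j (x j) =
              k (x r) * ∏ j ∈ (F.erase r).erase i, φ j (x j) := by
            intro x
            rw [← mul_prod_erase _ _ hre, Function.update_self,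
              prod_change _ φ (notMem_erase r _), erase_right_comm]
          have h1 : act (.tof S b hb hS) (fun x => p (x i) *
              ((∏ j ∈ F.erase i, Function.update φ r k j (x j)) * χ x)) =
              fun x => p (x i) *
              ((∏ j ∈ (F.erase r).erase i, φ j (x j)) * (k (x r) * χ x)) := by
            funext x
            simp only [act, e1]
            split_ifs with h
            · by_cases hrb : r = b
              · subst hrb
                simp only [hk, if_true, Function.update_of_ne hir, hχ r hrF]
                rw [prod_update _ φ (fun e => notMem_erase r F (mem_of_mem_erase e))]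
                ring
              · have hrS' : r ∈ S := hrS.resolve_right hrb
                have hxr : x r = true := h r hrS'
                simp [hk, hrb, hxr]
            · ring
          rw [run, h1, hrun]
      · push Not at hr
        have hbF : b ∉ F := fun e => (hr b e).2 rfl
        have hSF : ∀ i ∈ S, i ∉ F := fun i hi e => (hr i e).1 hi
        obtain ⟨i, hi, φ, hφ, V, ω, hω, hrun⟩ := ih F _ (indep_tof hχ hb hS hbF hSF) (by omega)
        refine ⟨i, hi, φ, hφ, V, ω, hω, fun p => ?_⟩
        have hib : i ≠ b := fun e => hbF (e ▸ hi)
        have h1 := act_tof_out (χ := χ) hb hS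
          (fun x => p (x i) * ∏ j ∈ F.erase i, φ j (x j)) (by
            intro x c
            rw [Function.update_of_ne hib,
              prod_update (F.erase i) φ (fun e => hbF (mem_of_mem_erase e))])
        have h2 : (fun x => p (x i) * ((∏ j ∈ F.erase i, φ j (x j)) * χ x)) =
            fun x => (p (x i) * ∏ j ∈ F.erase i, φ j (x j)) * χ x := by
          funext x; ring
        rw [run, h2, h1, ← hrun p]
        congr 1
        funext x; ring

theorem act_sum [Fintype N] (g : Gate N) (ψ : State N) (Φ : (N → Bool) → State N) :
    act g (fun y => ∑ x, ψ x * Φ x y) = fun y => ∑ x, ψ x * act g (Φ x) y := by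
  funext y
  cases g with
  | one q U hU =>
    simp only [act, mul_sum]
    rw [sum_comm]
    exact sum_congr rfl fun x _ => sum_congr rfl fun c _ => by ring
  | tof S b hb hS => rfl

theorem run_sum [Fintype N] (C : List (Gate N)) : ∀ (ψ : State N) (Φ : (N → Bool) → State N),
    run C (fun y => ∑ x, ψ x * Φ x y) = fun y => ∑ x, ψ x * run C (Φ x) y := by
  induction C with
  | nil => intro ψ Φ; rfl
  | cons g C ih =>
    intro ψ Φ
    rw [run, act_sum, ih]
    rfl

theorem run_ket [Fintype N] (C : List (Gate N)) (ψ : State N) (y : N → Bool) :
    run C ψ y = ∑ x, ψ x * run C (ket x) y := by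
  have h : ψ = fun y => ∑ x, ψ x * ket x y := by
    funext y
    simp [ket]
  conv_lhs => rw [h]
  rw [run_sum]

theorem par_update {n : ℕ} (ι : Fin n ↪ N) (x : N → Bool) {q : N} (hq : q ∉ Set.range ι)
    (c : Bool) : par ι (Function.update x q c) = par ι x := by
  have h : ∀ i, Function.update x q c (ι i) = x (ι i) := fun i => by
    rw [Function.update_of_ne (fun e => hq ⟨i, e⟩)]
  simp only [par, h]

theorem par_flip {n : ℕ} (ι : Fin n ↪ N) (x : N → Bool) (i : Fin n) :
    par ι (Function.update x (ι i) true) ≠ par ι (Function.update x (ι i) false) := by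
  have h : (univ.filter fun j => Function.update x (ι i) true (ι j) = true) =
      insert i (univ.filter fun j => Function.update x (ι i) false (ι j) = true) := by
    ext j
    by_cases hj : j = i
    · subst hj; simp
    · simp [hj]
  have hi : i ∉ univ.filter fun j => Function.update x (ι i) false (ι j) = true := by simp
  simp only [par, h, card_insert_of_notMem hi, Nat.odd_add_one]
  intro hcon
  rw [decide_eq_decide] at hcon
  tauto

/-- The lower bound. -/
theorem lower [Fintype N] {n : ℕ} (ι : Fin n ↪ N) (out : N) (hout : out ∉ Set.range ι)
    (C : List (Gate N)) (hC : Computes ι out C) : n ≤ toffolis C := by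
  classical
  by_contra hlt
  push Not at hlt
  set F : Finset N := univ.map ι with hF
  have hFmem : ∀ q, q ∈ F ↔ q ∈ Set.range ι := by
    intro q
    simp [hF]
  set χ : State N := fun x => if ∀ q, q ∉ F → x q = false then 1 else 0 with hχ
  have hχi : Indep F χ := by
    intro q hq x c
    have : (∀ r, r ∉ F → Function.update x q c r = false) ↔ ∀ r, r ∉ F → x r = false := by
      refine forall₂_congr fun r hr => ?_
      have hrq : r ≠ q := by
        rintro rfl
        exact hr hq
      rw [Function.update_of_ne hrq]
    simp only [hχ, this]
  have houtF : out ∉ F := fun h => hout ((hFmem out).1 h)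
  obtain ⟨i, hi, φ, hφ, V, ω, hω, hrun⟩ := elim C F χ hχi (by
    rw [hF, card_map, card_univ, Fintype.card_fin]; exact hlt)
  obtain ⟨i₀, rfl⟩ := (hFmem i).1 hi
  choose c hc using hφ
  set x₀ : N → Bool := fun j => if j ∈ F then c j else false with hx₀
  set xb : Bool → N → Bool := fun b => Function.update x₀ (ι i₀) b with hxb
  set ψ : Bool → State N := fun b x => (if x (ι i₀) = b then (1 : ℂ) else 0) *
    ((∏ j ∈ F.erase (ι i₀), φ j (x j)) * χ x) with hψ
  have hout0 : ∀ b, xb b out = false := by
    intro b
    have : out ≠ ι i₀ := fun e => hout ⟨i₀, e.symm⟩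
    simp only [hxb, Function.update_of_ne this, hx₀, if_neg houtF]
  have hsupp : ∀ b x, ψ b x ≠ 0 → ∀ q, q ∉ F → x q = false := by
    intro b x hx
    by_contra hcon
    apply hx
    have : χ x = 0 := if_neg hcon
    simp only [hψ, this, mul_zero]
  have hsum : ∀ b y, run C (ψ b) y =
      ∑ x, ψ b x * (if y = Function.update x out (par ι x) then 1 else 0) := by
    intro b y
    rw [run_ket]
    refine sum_congr rfl fun x _ => ?_
    by_cases hx : ψ b x = 0
    · rw [hx, zero_mul, zero_mul]
    · rw [hC x (fun q hq => hsupp b x hx q (fun h => hq ((hFmem q).1 h)))]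
      by_cases h : y = Function.update x out (par ι x) <;> simp [ket, h]
  have hne : ∀ b, ψ b (xb b) ≠ 0 := by
    intro b
    have h1 : χ (xb b) = 1 := by
      refine if_pos fun q hq => ?_
      have hqi : q ≠ ι i₀ := by
        rintro rfl
        exact hq hi
      simp only [hxb, Function.update_of_ne hqi, hx₀, if_neg hq]
    have h2 : ∏ j ∈ F.erase (ι i₀), φ j (xb b j) ≠ 0 := by
      refine prod_ne_zero_iff.2 fun j hj => ?_
      have hji : j ≠ ι i₀ := ne_of_mem_erase hj
      have : xb b j = c j := by
        simp only [hxb, Function.update_of_ne hji, hx₀, if_pos (mem_of_mem_erase hj)]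
      rw [this]
      exact hc j
    have h3 : xb b (ι i₀) = b := by simp only [hxb, Function.update_self]
    simp only [hψ, h1, h3, if_true, one_mul, mul_one]
    exact h2
  -- value at the image of `xb b`
  have hval : ∀ b, run C (ψ b) (Function.update (xb b) out (par ι (xb b))) ≠ 0 := by
    intro b
    rw [hsum, sum_eq_single (xb b)]
    · simpa using hne b
    · intro x _ hx
      by_cases h0 : ψ b x = 0
      · rw [h0, zero_mul]
      · rw [if_neg, mul_zero]
        intro hcon
        apply hx
        funext q
        by_cases hq : q = out
        · subst hq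
          rw [hsupp b x h0 q houtF, hout0]
        · have := congrFun hcon q
          rw [Function.update_of_ne hq, Function.update_of_ne hq] at this
          exact this.symm
    · intro h
      exact absurd (mem_univ _) h
  have hzero : ∀ b y, y out ≠ par ι y → run C (ψ b) y = 0 := by
    intro b y hy
    rw [hsum]
    refine sum_eq_zero fun x _ => ?_
    rw [if_neg, mul_zero]
    rintro rfl
    apply hy
    rw [Function.update_self, par_update ι x hout]
  have hprod : ∀ b y, run C (ψ b) y = V (y (ι i₀)) b * ω y := by
    intro b y
    have := congrFun (hrun (fun c => if c = b then 1 else 0)) y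
    rw [show run C (ψ b) y = run C (fun x => (if x (ι i₀) = b then (1 : ℂ) else 0) *
      ((∏ j ∈ F.erase (ι i₀), φ j (x j)) * χ x)) y from rfl, this]
    simp
  have hioo : ι i₀ ≠ out := fun e => hout ⟨i₀, e⟩
  set y₀ : N → Bool := Function.update (xb false) out (par ι (xb false)) with hy₀
  have h1 : ω y₀ ≠ 0 := by
    intro h
    apply hval false
    rw [hprod, h, mul_zero]
  have h2 : V true true = 0 := by
    have h3 := hzero true (Function.update y₀ (ι i₀) true) (by
      have e1 : Function.update y₀ (ι i₀) true out = par ι (xb false) := by
        rw [Function.update_of_ne hioo.symm, hy₀, Function.update_self]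
      have e2 : par ι (Function.update y₀ (ι i₀) true) = par ι (xb true) := by
        rw [hy₀, Function.update_comm hioo.symm, par_update ι _ hout]
        simp only [hxb, Function.update_idem]
      rw [e1, e2]
      exact (par_flip ι x₀ i₀).symm)
    rw [hprod, hω, Function.update_self] at h3
    exact (mul_eq_zero.1 h3).resolve_right h1
  apply hval true
  rw [hprod, Function.update_of_ne hioo]
  have : xb true (ι i₀) = true := by simp only [hxb, Function.update_self]
  rw [this, h2, zero_mul]

end Vale.Agent.P368
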