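import Vale.Agent.P368.Elim2

/-!
# P368: reversed circuits
-/

namespace Vale.Agent.P368

open Finset

variable {N : Type} [DecidableEq N]

omit [DecidableEq N] in
/-- The inverse gate. -/
def inv : Gate N → Gate N
  | .one q U hU => .one q (star U) (Unitary.star_mem hU)
  | .tof S b hb hS => .tof S b hb hS

omit [DecidableEq N] in
/-- The reversed circuit. -/
def rev : List (Gate N) → List (Gate N)
  | [] => []
  | g :: C => rev C ++ [inv g]

theorem act_inv (g : Gate N) (ψ : State N) : act (inv g) (act g ψ) = ψ := by
  cases g with
  | one q U hU =>
    have hUU : star U * U = 1 := Matrix.mem_unitaryGroup_iff'.1 hU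
    funext x
    have h : act (inv (.one q U hU)) (act (.one q U hU) ψ) x =
        ∑ d, (star U * U) (x q) d * ψ (Function.update x q d) := by
      simp only [inv, act, Function.update_self, Function.update_idem, Matrix.mul_apply, mul_sum,
        sum_mul]
      rw [sum_comm]
      exact sum_congr rfl fun c _ => sum_congr rfl fun d _ => by ring
    rw [h, hUU]
    simp [Matrix.one_apply]
  | tof S b hb hS =>
    funext x
    simp only [inv, act]
    congr 1
    by_cases h : ∀ i ∈ S, x i = true
    · have h' : ∀ i ∈ S, Function.update x b (!x b) i = true := by
        intro i hi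
        have hib : i ≠ b := by
          rintro rfl
          exact hb hi
        rw [Function.update_of_ne hib]
        exact h i hi
      rw [if_pos h, if_pos h']
      simp
    · rw [if_neg h, if_neg h]

theorem run_append (C D : List (Gate N)) (ψ : State N) : run (C ++ D) ψ = run D (run C ψ) := by
  induction C generalizing ψ with
  | nil => rfl
  | cons g C ih =>
    rw [List.cons_append, run, ih, run]

theorem run_rev (C : List (Gate N)) (ψ : State N) : run (rev C) (run C ψ) = ψ := by
  induction C generalizing ψ with
  | nil => rfl
  | cons g C ih =>
    rw [rev, run_append]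
    change act (inv g) (run (rev C) (run C (act g ψ))) = ψ
    rw [ih]
    exact act_inv g ψ

theorem hits_append (F : Finset N) (C D : List (Gate N)) :
    hits F (C ++ D) = hits F C + hits F D := by
  induction C with
  | nil => simp [hits]
  | cons g C ih =>
    cases g with
    | one q U hU => simpa [hits] using ih
    | tof S b hb hS =>
      rw [List.cons_append, hits, hits, ih]
      split_ifs <;> omega

theorem hits_rev (F : Finset N) (C : List (Gate N)) : hits F (rev C) = hits F C := by
  induction C with
  | nil => rfl
  | cons g C ih =>
    rw [rev, hits_append, ih]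
    cases g with
    | one q U hU => simp [hits, inv]
    | tof S b hb hS =>
      rw [inv, hits, hits, hits]
      split_ifs <;> omega

theorem prodOn_append (i : N) (C D : List (Gate N)) :
    prodOn i (C ++ D) = prodOn i D * prodOn i C := by
  induction C with
  | nil => simp [prodOn]
  | cons g C ih =>
    cases g with
    | one q U hU =>
      simp only [List.cons_append, prodOn, ih]
      split_ifs
      · rw [mul_assoc]
      · rfl
    | tof S b hb hS => simpa only [List.cons_append, prodOn] using ih

theorem prodOn_rev (i : N) (C : List (Gate N)) : prodOn i (rev C) * prodOn i C = 1 := by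
  induction C with
  | nil => simp [prodOn, rev]
  | cons g C ih =>
    rw [rev, prodOn_append]
    cases g with
    | one q U hU =>
      have hUU : star U * U = 1 := Matrix.mem_unitaryGroup_iff'.1 hU
      by_cases hq : q = i
      · simp only [inv, prodOn, if_pos hq, one_mul]
        rw [mul_assoc, ← mul_assoc (prodOn i (rev C)), ih, one_mul, hUU]
      · simp only [inv, prodOn, if_neg hq, one_mul]
        exact ih
    | tof S b hb hS =>
      simp only [inv, prodOn, one_mul]
      exact ih

theorem act_lin {α : Type} (s : Finset α) (g : Gate N) (a : α → ℂ) (Φ : α → State N) :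
    act g (fun y => ∑ x ∈ s, a x * Φ x y) = fun y => ∑ x ∈ s, a x * act g (Φ x) y := by
  funext y
  cases g with
  | one q U hU =>
    simp only [act, mul_sum]
    rw [sum_comm]
    exact sum_congr rfl fun x _ => sum_congr rfl fun c _ => by ring
  | tof S b hb hS => rfl

theorem run_lin {α : Type} (s : Finset α) (C : List (Gate N)) : ∀ (a : α → ℂ)
    (Φ : α → State N),
    run C (fun y => ∑ x ∈ s, a x * Φ x y) = fun y => ∑ x ∈ s, a x * run C (Φ x) y := by
  induction C with
  | nil => intro a Φ; rfl
  | cons g C ih =>
    intro a Φ
    rw [run, act_lin, ih]
    rfl

end Vale.Agent.P368
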