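import Vale.Agent.P368.Rev
import Vale.Agent.P368.Defs2

/-!
# P368: the lower bound for circuits with a designated output qubit
-/

namespace Vale.Agent.P368

open Finset

variable {N : Type} [DecidableEq N]

/-- The sign `(-1)^b`. -/
noncomputable def sg (b : Bool) : ℂ := if b = true then -1 else 1

/-- The matrix `Z`. -/
noncomputable def zm : Matrix Bool Bool ℂ := Matrix.diagonal sg

theorem zm_mem : zm ∈ Matrix.unitaryGroup Bool ℂ := by
  rw [Matrix.mem_unitaryGroup_iff, zm, Matrix.star_eq_conjTranspose,
    Matrix.diagonal_conjTranspose, Matrix.diagonal_mul_diagonal, ← Matrix.diagonal_one]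
  congr 1
  funext b
  cases b <;> simp [sg]

theorem act_z (q : N) (ψ : State N) :
    act (.one q zm zm_mem) ψ = fun x => sg (x q) * ψ x := by
  funext x
  simp only [act, zm, Matrix.diagonal_apply, ite_mul, zero_mul]
  simp

/-- The circuit, then `Z` on the output qubit, then the reversed circuit. -/
noncomputable def conjZ (out : N) (C : List (Gate N)) : List (Gate N) :=
  C ++ (.one out zm zm_mem :: rev C)

theorem hits_conjZ (F : Finset N) (out : N) (C : List (Gate N)) :
    hits F (conjZ out C) = 2 * hits F C := by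
  rw [conjZ, hits_append, hits, hits_rev]
  omega

theorem prodOn_conjZ {i out : N} (h : out ≠ i) (C : List (Gate N)) :
    prodOn i (conjZ out C) = 1 := by
  rw [conjZ, prodOn_append, prodOn, if_neg h, prodOn_rev]

theorem run_conjZ {n : ℕ} (ι : Fin n ↪ N) (out : N) (χ : State N) (C : List (Gate N))
    (hC : Decides ι out χ C) (a : Fin n → Bool) :
    run (conjZ out C) (start ι χ a) = fun y =>
      sg (decide (Odd (Finset.univ.filter fun i => a i = true).card)) * start ι χ a y := by
  set σ := decide (Odd (Finset.univ.filter fun i => a i = true).card) with hσ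
  have h1 : act (.one out zm zm_mem) (run C (start ι χ a)) =
      fun y => ∑ x ∈ ({()} : Finset Unit), sg σ * run C (start ι χ a) y := by
    rw [act_z]
    funext y
    rw [sum_singleton]
    by_cases hy : y out = σ
    · rw [hy]
    · rw [hC a y hy, mul_zero, mul_zero]
  have h2 := run_lin ({()} : Finset Unit) (rev C) (fun _ => sg σ)
    (fun _ => run C (start ι χ a))
  rw [conjZ, run_append, run, h1, h2, run_rev]
  funext y
  rw [sum_singleton]

theorem run_conjZ' {n : ℕ} (ι : Fin n ↪ N) (out : N) (χ : State N) (C : List (Gate N))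
    (hC : Decides ι out χ C) (B : (N → Bool) → ℂ)
    (hB : ∀ x y : N → Bool, (∀ i, x (ι i) = y (ι i)) → B x = B y) :
    run (conjZ out C) (fun y => B y * χ y) = fun y => sg (par ι y) * (B y * χ y) := by
  classical
  set ext : (Fin n → Bool) → N → Bool := fun a q =>
    if h : ∃ i, ι i = q then a h.choose else false with hext
  have hext1 : ∀ a i, ext a (ι i) = a i := by
    intro a i
    have h : ∃ j, ι j = ι i := ⟨i, rfl⟩
    simp only [hext, dif_pos h]
    congr 1
    exact ι.injective h.choose_spec
  have hdec : ∀ (f : (Fin n → Bool) → ℂ) (y : N → Bool),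
      ∑ a, f a * start ι χ a y = f (fun i => y (ι i)) * χ y := by
    intro f y
    rw [sum_eq_single (fun i => y (ι i))]
    · rw [start, if_pos (fun _ => rfl)]
    · intro a _ ha
      rw [start, if_neg, mul_zero]
      intro hcon
      exact ha (funext fun i => (hcon i).symm)
    · intro h
      exact absurd (mem_univ _) h
  have h1 : (fun y => B y * χ y) = fun y => ∑ a, B (ext a) * start ι χ a y := by
    funext y
    rw [hdec (fun a => B (ext a)) y]
    congr 1
    exact hB _ _ fun i => (hext1 (fun i => y (ι i)) i).symm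
  have h2 := run_lin (univ : Finset (Fin n → Bool)) (conjZ out C) (fun a => B (ext a))
    (fun a => start ι χ a)
  rw [h1, h2]
  funext y
  simp only [run_conjZ ι out χ C hC]
  have h3 := hdec (fun a => B (ext a) *
    sg (decide (Odd (Finset.univ.filter fun i => a i = true).card))) y
  have h4 : B (ext fun i => y (ι i)) = B y := hB _ _ fun i => hext1 (fun i => y (ι i)) i
  rw [h4] at h3
  rw [show sg (par ι y) * (B y * χ y) = B y * sg (par ι y) * χ y by ring]
  refine Eq.trans ?_ h3
  exact sum_congr rfl fun a _ => by ring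

/-- The core of the lower bound. -/
theorem core {n : ℕ} (ι : Fin n ↪ N) (out : N) (χ : State N) (hχ : Advice ι χ) (hχ0 : χ ≠ 0)
    (C : List (Gate N)) (hC : Decides ι out χ C) (F : Finset N) (hF : F ⊆ univ.map ι)
    (hout : out ∉ F) : F.card ≤ 2 * hits (univ.map ι) C := by
  classical
  by_contra hlt
  push Not at hlt
  set δ : State N := fun y => if ∀ q ∈ univ.map ι \ F, y q = false then 1 else 0 with hδ
  have hδ' : ∀ x y : N → Bool, ((∀ q ∈ univ.map ι \ F, x q = false) ↔
      ∀ q ∈ univ.map ι \ F, y q = false) → δ x = δ y := by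
    intro x y h
    simp only [hδ]
    by_cases hx : ∀ q ∈ univ.map ι \ F, x q = false
    · rw [if_pos hx, if_pos (h.1 hx)]
    · rw [if_neg hx, if_neg (fun hy => hx (h.2 hy))]
  have hFr : ∀ q ∈ F, ∃ i, ι i = q := by
    intro q hq
    simpa using hF hq
  have hind : Indep F (fun y => δ y * χ y) := by
    intro q hq x c
    have e1 : (∀ r ∈ univ.map ι \ F, Function.update x q c r = false) ↔
        ∀ r ∈ univ.map ι \ F, x r = false := by
      refine forall₂_congr fun r hr => ?_
      have hrq : r ≠ q := by
        rintro rfl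
        exact (mem_sdiff.1 hr).2 hq
      rw [Function.update_of_ne hrq]
    have e2 : χ (Function.update x q c) = χ x := by
      refine hχ _ _ fun r hr => ?_
      have hrq : r ≠ q := by
        rintro rfl
        exact hr (hFr r hq)
      rw [Function.update_of_ne hrq]
    change δ (Function.update x q c) * χ (Function.update x q c) = δ x * χ x
    rw [hδ' _ _ e1, e2]
  obtain ⟨i, hi, φ, hφ, ω, hω, hrun⟩ := elim2 (univ.map ι) (conjZ out C) F hF _ hind (by
    rw [hits_conjZ]; exact hlt)
  have hio : out ≠ i := fun e => hout (e ▸ hi)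
  obtain ⟨i₀, rfl⟩ := hFr i hi
  have h1 := hrun (fun _ => 1)
  rw [prodOn_conjZ hio] at h1
  set B : (N → Bool) → ℂ := fun y => (∏ j ∈ F.erase (ι i₀), φ j (y j)) * δ y with hB
  have hBi : ∀ x y : N → Bool, (∀ i, x (ι i) = y (ι i)) → B x = B y := by
    intro x y h
    have e1 : ∏ j ∈ F.erase (ι i₀), φ j (x j) = ∏ j ∈ F.erase (ι i₀), φ j (y j) := by
      refine prod_congr rfl fun j hj => ?_
      obtain ⟨k, rfl⟩ := hFr j (mem_of_mem_erase hj)
      rw [h k]
    have e2 : (∀ q ∈ univ.map ι \ F, x q = false) ↔ ∀ q ∈ univ.map ι \ F, y q = false := by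
      refine forall₂_congr fun q hq => ?_
      obtain ⟨k, _, rfl⟩ := mem_map.1 (mem_sdiff.1 hq).1
      rw [h k]
    simp only [hB]
    rw [e1, hδ' _ _ e2]
  have h2 := run_conjZ' ι out χ C hC B hBi
  have h3 : (fun x : N → Bool => (fun _ : Bool => (1 : ℂ)) (x (ι i₀)) *
      ((∏ j ∈ F.erase (ι i₀), φ j (x j)) * (δ x * χ x))) = fun y => B y * χ y := by
    funext y
    simp only [hB]
    ring
  rw [h3, h2] at h1
  have h4 : ∀ y, ω y = sg (par ι y) * (B y * χ y) := by
    intro y
    have := congrFun h1 y
    simp only [Matrix.one_apply, mul_one] at this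
    rw [this]
    simp
  obtain ⟨y₀, hy₀⟩ : ∃ y, χ y ≠ 0 := by
    by_contra hcon
    push Not at hcon
    exact hχ0 (funext hcon)
  choose c hc using hφ
  set y₁ : N → Bool := fun q => if q ∈ F then c q else if q ∈ univ.map ι then false else y₀ q
    with hy₁
  have h5 : ∀ b, B (Function.update y₁ (ι i₀) b) * χ (Function.update y₁ (ι i₀) b) =
      B y₁ * χ y₁ := by
    intro b
    have e1 : χ (Function.update y₁ (ι i₀) b) = χ y₁ := by
      refine hχ _ _ fun r hr => ?_
      rw [Function.update_of_ne (fun e => hr ⟨i₀, e.symm⟩)]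
    have e2 : ∏ j ∈ F.erase (ι i₀), φ j (Function.update y₁ (ι i₀) b j) =
        ∏ j ∈ F.erase (ι i₀), φ j (y₁ j) := prod_update _ φ (notMem_erase _ _) _ _
    have e3 : (∀ q ∈ univ.map ι \ F, Function.update y₁ (ι i₀) b q = false) ↔
        ∀ q ∈ univ.map ι \ F, y₁ q = false := by
      refine forall₂_congr fun r hr => ?_
      have hrq : r ≠ ι i₀ := by
        rintro rfl
        exact (mem_sdiff.1 hr).2 hi
      rw [Function.update_of_ne hrq]
    simp only [hB]
    rw [e1, e2, hδ' _ _ e3]
  have h6 : B y₁ * χ y₁ ≠ 0 := by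
    refine mul_ne_zero ?_ ?_
    · simp only [hB]
      refine mul_ne_zero ?_ ?_
      · refine prod_ne_zero_iff.2 fun j hj => ?_
        have : y₁ j = c j := by simp only [hy₁, if_pos (mem_of_mem_erase hj)]
        rw [this]
        exact hc j
      · simp only [hδ]
        rw [if_pos]
        · exact one_ne_zero
        · intro q hq
          simp only [hy₁, if_neg (mem_sdiff.1 hq).2, if_pos (mem_sdiff.1 hq).1]
    · have : χ y₁ = χ y₀ := by
        refine hχ _ _ fun r hr => ?_
        have hr' : r ∉ univ.map ι := by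
          intro h
          obtain ⟨k, _, hk⟩ := mem_map.1 h
          exact hr ⟨k, hk⟩
        simp only [hy₁, if_neg (fun h => hr' (hF h)), if_neg hr']
      rw [this]
      exact hy₀
  have h7 : sg (par ι (Function.update y₁ (ι i₀) true)) =
      sg (par ι (Function.update y₁ (ι i₀) false)) := by
    have e1 := h4 (Function.update y₁ (ι i₀) true)
    have e2 := h4 (Function.update y₁ (ι i₀) false)
    rw [hω, h5] at e1 e2
    exact mul_right_cancel₀ h6 (e1.symm.trans e2)
  have h8 := par_flip ι y₁ i₀
  revert h7 h8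
  cases par ι (Function.update y₁ (ι i₀) true) <;>
    cases par ι (Function.update y₁ (ι i₀) false) <;> norm_num [sg]

/-- The lower bound for unclean computations with advice. -/
theorem lower2 {n : ℕ} (ι : Fin n ↪ N) (out : N) (χ : State N) (hχ : Advice ι χ) (hχ0 : χ ≠ 0)
    (C : List (Gate N)) (hC : Decides ι out χ C) :
    n ≤ 2 * hits (univ.map ι) C + 1 ∧ (out ∉ Set.range ι → n ≤ 2 * hits (univ.map ι) C) := by
  constructor
  · have h := core ι out χ hχ hχ0 C hC ((univ.map ι).erase out) (erase_subset _ _)
      (notMem_erase _ _)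
    have h2 : (univ.map ι).card = n := by rw [card_map, card_univ, Fintype.card_fin]
    have h3 := pred_card_le_card_erase (a := out) (s := univ.map ι)
    omega
  · intro ho
    have h := core ι out χ hχ hχ0 C hC (univ.map ι) (Subset.refl _) (by
      intro hm
      obtain ⟨k, _, hk⟩ := mem_map.1 hm
      exact ho ⟨k, hk⟩)
    rwa [card_map, card_univ, Fintype.card_fin] at h

end Vale.Agent.P368
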