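import Vale.Agent.P368.Main

/-!
# P368: `n` two-qubit gates suffice
-/

namespace Vale.Agent.P368

open Finset

variable {N : Type} [DecidableEq N]

/-- The controlled not gate. -/
def cnot (a b : N) (h : a ≠ b) : Gate N :=
  .tof {a} b (by simpa using h.symm) (singleton_nonempty a)

theorem act_cnot (a b : N) (h : a ≠ b) (x : N → Bool) :
    act (cnot a b h) (ket x) = ket (Function.update x b (xor (x b) (x a))) := by
  have key : ∀ y : N → Bool,
      ((if ∀ i ∈ ({a} : Finset N), y i = true then Function.update y b (!y b) else y) = x ↔
        y = Function.update x b (xor (x b) (x a))) := by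
    intro y
    simp only [mem_singleton, forall_eq]
    constructor
    · rintro rfl
      by_cases hy : y a = true
      · simp [hy, Function.update_of_ne h]
      · have hy' : y a = false := by simpa using hy
        simp [hy']
    · rintro rfl
      by_cases hx : x a = true
      · simp [hx, Function.update_of_ne h]
      · have hx' : x a = false := by simpa using hx
        simp [hx']
  funext y
  simp only [act, cnot, ket]
  by_cases h1 : y = Function.update x b (xor (x b) (x a))
  · rw [if_pos h1, if_pos ((key y).2 h1)]
  · rw [if_neg h1, if_neg (fun h2 => h1 ((key y).1 h2))]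

/-- The circuit of the gates `cnot (ι i) out` for `i` in a list. -/
def chain {n : ℕ} (ι : Fin n ↪ N) (out : N) (h : out ∉ Set.range ι) (l : List (Fin n)) :
    List (Gate N) :=
  l.map fun i => cnot (ι i) out (fun e => h ⟨i, e⟩)

theorem run_chain {n : ℕ} (ι : Fin n ↪ N) (out : N) (h : out ∉ Set.range ι) (l : List (Fin n)) :
    ∀ x : N → Bool, run (chain ι out h l) (ket x) =
      ket (Function.update x out (l.foldl (fun b i => xor b (x (ι i))) (x out))) := by
  induction l with
  | nil => intro x; simp [chain, run]
  | cons i l ih =>
    intro x
    have h1 : run (chain ι out h (i :: l)) (ket x) =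
        run (chain ι out h l) (act (cnot (ι i) out (fun e => h ⟨i, e⟩)) (ket x)) := rfl
    rw [h1, act_cnot, ih]
    have h2 : ∀ j, Function.update x out (xor (x out) (x (ι i))) (ι j) = x (ι j) := fun j =>
      Function.update_of_ne (fun e => h ⟨j, e⟩) _ _
    simp only [Function.update_idem, h2, Function.update_self, List.foldl_cons]

theorem foldl_xor {n : ℕ} (f : Fin n → Bool) (l : List (Fin n)) (b : Bool) :
    l.foldl (fun b i => xor b (f i)) b = xor b (decide (Odd (l.countP fun i => f i))) := by
  induction l generalizing b with
  | nil => simp
  | cons i l ih =>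
    rw [List.foldl_cons, ih, List.countP_cons]
    by_cases hi : f i = true
    · simp only [hi, if_true, Nat.odd_add_one]
      by_cases ho : Odd (List.countP (fun i => f i) l) <;> simp [ho]
    · have hi' : f i = false := by simpa using hi
      simp [hi']

omit [DecidableEq N] in
theorem toffolis_chain {n : ℕ} (ι : Fin n ↪ N) (out : N) (h : out ∉ Set.range ι)
    (l : List (Fin n)) : toffolis (chain ι out h l) = l.length := by
  induction l with
  | nil => rfl
  | cons i l ih =>
    have : toffolis (chain ι out h (i :: l)) = toffolis (chain ι out h l) + 1 := rfl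
    rw [this, ih, List.length_cons]

theorem upper {n : ℕ} (ι : Fin n ↪ N) (out : N) (hout : out ∉ Set.range ι) :
    ∃ C : List (Gate N), Computes ι out C ∧ toffolis C = n := by
  refine ⟨chain ι out hout (List.finRange n), ?_, by
    rw [toffolis_chain, List.length_finRange]⟩
  intro x hx
  rw [run_chain, foldl_xor, hx out hout, Bool.false_xor]
  have h : (List.finRange n).countP (fun i => x (ι i)) =
      (univ.filter fun i => x (ι i) = true).card := by
    rw [List.countP_eq_length_filter,
      ← List.toFinset_card_of_nodup ((List.nodup_finRange n).filter _)]
    congr 1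
    ext i
    simp
  rw [h]
  rfl

end Vale.Agent.P368
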